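import Crest.Agent.R52.Hoff

/-! Discrete convexity (S0072) from the fractional-to-integral cover theorem (S0071). -/

set_option autoImplicit false
set_option linter.unusedSectionVars false
open Finset Function Crest.FinProb

namespace Crest.Agent.R52
open Crest.Agent.R56

variable {ι : Type*} [Fintype ι] [DecidableEq ι]

/-- `x` lies inside a union of at most `n` members of `D`. -/
def Cov (D : Finset (Finset ι)) (n : ℕ) (x : ι → Bool) : Prop :=
  ∃ l : List (Finset ι), l.length ≤ n ∧ (∀ s ∈ l, s ∈ D) ∧ ∀ i, x i = true → ∃ s ∈ l, i ∈ s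

open Classical in
theorem ex_cov {p δ : ℝ} (h0 : 0 ≤ p) (h1 : p ≤ 1) (D : Finset (Finset ι))
    (hD : 1 - δ ≤ ex p (fun x => if univ.filter (fun i => x i = true) ∈ D then 1 else 0)) :
    ∀ n : ℕ, 1 - n * δ ≤ ex (1 - (1 - p) ^ n) fun x => if Cov D n x then 1 else 0
  | 0 => by
    have e := ex_prod (ι := ι) (p := 0) fun _ b => if b then 0 else 1
    simp only [zero_mul, Bool.false_eq_true, if_false, sub_zero, mul_one, zero_add,
      prod_const_one] at e
    simp only [pow_zero, sub_self, Nat.cast_zero, zero_mul, sub_zero]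
    refine e.symm.le.trans (ex_mono le_rfl zero_le_one fun x => ?_)
    by_cases h : ∃ i, x i = true
    · obtain ⟨i, hi⟩ := h
      rw [prod_eq_zero (mem_univ i) (by simp [hi])]
      split_ifs <;> norm_num
    · push Not at h
      rw [if_pos ⟨[], le_rfl, by simp, fun i hi => absurd hi (h i)⟩]
      exact le_of_eq (prod_eq_one fun i _ => by simp [h i])
  | n + 1 => by
    have ih := ex_cov h0 h1 D hD n
    have hq0 : 0 ≤ (1 - p) ^ n := pow_nonneg (by linarith) n
    have hq1 : (1 - p) ^ n ≤ 1 := pow_le_one₀ (by linarith) (by linarith)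
    have e : 1 - (1 - p) ^ (n + 1) = 1 - (1 - (1 - (1 - p) ^ n)) * (1 - p) := by ring
    rw [e, ex_union]
    have : (ex (1 - (1 - p) ^ n) fun x : ι → Bool => ex p fun y : ι → Bool =>
        (if Cov D n x then (1 : ℝ) else 0) +
          ((if univ.filter (fun i => y i = true) ∈ D then (1 : ℝ) else 0) - 1)) ≤
        ex (1 - (1 - p) ^ n) fun x => ex p fun y =>
          if Cov D (n + 1) (fun i => x i || y i) then 1 else 0 := by
      refine ex_mono (by linarith) (by linarith) fun x => ex_mono h0 h1 fun y => ?_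
      by_cases hx : Cov D n x
      · by_cases hy : univ.filter (fun i => y i = true) ∈ D
        · obtain ⟨l, l1, l2, l3⟩ := hx
          have : Cov D (n + 1) fun i => x i || y i := by
            refine ⟨univ.filter (fun i => y i = true) :: l, by simpa using l1, ?_, ?_⟩
            · intro s hs
              rcases List.mem_cons.1 hs with rfl | hs
              · exact hy
              · exact l2 s hs
            · intro i hi
              rcases Bool.or_eq_true_iff.1 hi with hi | hi
              · obtain ⟨s, hs, his⟩ := l3 i hi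
                exact ⟨s, List.mem_cons_of_mem _ hs, his⟩
              · exact ⟨_, List.mem_cons_self, by simpa using hi⟩
          rw [if_pos this, if_pos hy, if_pos ⟨l, l1, l2, l3⟩]; norm_num
        · rw [if_pos hx, if_neg hy]; split_ifs <;> norm_num
      · rw [if_neg hx]; split_ifs <;> norm_num
    simp only [ex_add, ex_sub, ex_const] at this
    push_cast
    linarith

theorem one_sub_pow_mul_le {p : ℝ} (h0 : 0 ≤ p) (h1 : p ≤ 1) :
    ∀ n : ℕ, (1 - p) ^ n * (1 + n * p) ≤ 1
  | 0 => by simp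
  | n + 1 => by
    have ih := one_sub_pow_mul_le h0 h1 n
    have hq0 : 0 ≤ (1 - p) ^ n := pow_nonneg (by linarith) n
    have : (1 - p) * (1 + (n + 1) * p) ≤ 1 + n * p := by
      have : (0 : ℝ) ≤ n := Nat.cast_nonneg n
      nlinarith [mul_nonneg h0 h0, mul_nonneg this (mul_nonneg h0 h0)]
    push_cast
    calc (1 - p) ^ (n + 1) * (1 + (n + 1) * p) = (1 - p) ^ n * ((1 - p) * (1 + (n + 1) * p)) := by
          ring
      _ ≤ (1 - p) ^ n * (1 + n * p) := mul_le_mul_of_nonneg_left this hq0
      _ ≤ 1 := ih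

/-- The statement S0071, as a hypothesis. -/
def S71 : Prop := ∀ (α : Type) [Fintype α]
    [DecidableEq α] [Nonempty α] (F : Finset (Finset α)) (_ : F.Nonempty) (_ : ∅ ∉ F)
    (_ : ∀ A ∈ F, ∀ B : Finset α, A ⊆ B → B ∈ F) (r : ℝ) (_ : 0 ≤ r) (_ : r ≤ 1)
    (g : Finset α → ℝ) (_ : ∀ S : Finset α, 0 ≤ g S ∧ g S ≤ 1)
    (_ : ∀ H ∈ F, 1 ≤ ∑ S ∈ H.powerset, g S)
    (_ : ∑ S : Finset α, g S * r ^ S.card ≤ 1 / 2),
    ∃ G : Finset (Finset α), (∀ H ∈ F, ∃ S ∈ G, S ⊆ H) ∧
      ∑ S ∈ G, (r / (25 * 512 ^ 4)) ^ S.card ≤ 1 / 2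

theorem convexity (h71 : S71) (N : ℕ) (hN : 1 ≤ N) (p : ℝ)
    (hp0 : 0 < p) (hp1 : p < 1) (D : Finset (Finset (Fin N))) (k : ℕ) (hk : k = 2 ^ 75)
    (hD : 1 - 1 / 2 ^ 75 ≤ ∑ S ∈ D, p ^ S.card * (1 - p) ^ (N - S.card)) :
    ∃ G : Finset (Finset (Fin N)),
      (∀ S : Finset (Fin N),
        (∀ f : Fin k → Finset (Fin N), (∀ i, f i ∈ D) → ¬ S ⊆ Finset.univ.biUnion f) →
          ∃ I ∈ G, I ⊆ S) ∧
      ∑ I ∈ G, p ^ I.card ≤ 1 / 2 := by
  classical
  haveI : Nonempty (Fin N) := ⟨⟨0, hN⟩⟩
  obtain ⟨d, hd⟩ : D.Nonempty := by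
    rw [nonempty_iff_ne_empty]
    rintro rfl
    norm_num at hD
  set F : Finset (Finset (Fin N)) := univ.filter fun S =>
    ∀ f : Fin k → Finset (Fin N), (∀ i, f i ∈ D) → ¬ S ⊆ Finset.univ.biUnion f with hF
  rcases F.eq_empty_or_nonempty with hF0 | hFne
  · refine ⟨∅, fun S hS => ?_, by simp⟩
    have : S ∈ F := mem_filter.2 ⟨mem_univ _, hS⟩
    simp [hF0] at this
  obtain ⟨m, hm⟩ : ∃ m : ℕ, m = 2 ^ 42 := ⟨_, rfl⟩
  have hmR : (m : ℝ) = 2 ^ 42 := by rw [hm]; norm_num
  set P : ℝ := 1 - (1 - p) ^ m with hP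
  have hq0 : 0 < (1 - p) ^ m := pow_pos (by linarith) m
  have hq1 : (1 - p) ^ m < 1 := pow_lt_one₀ (by linarith) (by linarith) (by rw [hm]; norm_num)
  have hP0 : 0 < P := by linarith
  have hP1 : P < 1 := by linarith
  have hB := one_sub_pow_mul_le hp0.le hp1.le m
  have hB' : (1 - P) * (1 + 2 ^ 42 * p) ≤ 1 := by
    rw [← hmR]; simpa [hP] using hB
  set a : (Fin N → Bool) → ℝ := fun x => if Cov D m x then 1 else 0 with ha
  have hμ : 1 - m * (1 / 2 ^ 75) ≤ ex P a :=
    ex_cov hp0.le hp1.le D (by rw [ex_mem_eq]; simpa using hD) m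
  have hμ' : 2 / 3 ≤ ex P a := by
    rw [hmR] at hμ; norm_num at hμ; linarith
  have hpar : ∑ T ∈ univ.erase ∅, hat P a T ^ 2 = ex P a - ex P a ^ 2 := by
    have := parseval_sq hP0 hP1 a
    rw [← add_sum_erase _ _ (mem_univ ∅), hat_empty] at this
    have e : (ex P fun x => a x ^ 2) = ex P a := ex_congr fun x => by
      simp only [ha]; split_ifs <;> norm_num
    linarith
  have hkey : ∀ S ∈ F, ex P a ^ 2 ≤ ∑ T ∈ S.powerset.erase ∅, ((1 - P) / P) ^ #T * hat P a T ^ 2 := by
    intro S hS
    refine hoff_le hP0 hP1 S a fun x y hx hy => ?_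
    have hx' : Cov D m x := by by_contra h; simp [ha, h] at hx
    have hy' : Cov D m y := by by_contra h; simp [ha, h] at hy
    obtain ⟨l, l1, l2, l3⟩ := hx'
    obtain ⟨l', l1', l2', l3'⟩ := hy'
    by_contra hc
    push Not at hc
    have hlen : (l ++ l').length ≤ k := by
      rw [List.length_append, hk]; rw [hm] at l1 l1'; omega
    refine (mem_filter.1 hS).2 (fun i => (l ++ l').getD i d) (fun i => ?_) fun i hi => ?_
    · rw [List.getD_eq_getElem?_getD]
      cases h : (l ++ l')[(i : ℕ)]? with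
      | none => exact hd
      | some s =>
        rcases List.mem_append.1 (List.mem_of_getElem? h) with h | h
        · exact l2 s h
        · exact l2' s h
    · obtain ⟨s, hs, his⟩ : ∃ s ∈ l ++ l', i ∈ s := by
        cases hxi : x i with
        | true =>
          obtain ⟨s, hs, his⟩ := l3 i hxi
          exact ⟨s, List.mem_append_left _ hs, his⟩
        | false =>
          obtain ⟨s, hs, his⟩ := l3' i (by simpa using hc i hi hxi)
          exact ⟨s, List.mem_append_right _ hs, his⟩
      obtain ⟨j, hj, rfl⟩ := List.getElem_of_mem hs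
      refine mem_biUnion.2 ⟨⟨j, hj.trans_le hlen⟩, mem_univ _, ?_⟩
      rw [List.getD_eq_getElem _ _ hj]; exact his
  have hμ0 : 0 < ex P a ^ 2 := by positivity
  by_cases hsmall : (25 * 512 ^ 4) * p ≤ 1 / 2
  · set g : Finset (Fin N) → ℝ := fun T =>
      if T = ∅ then 0 else min 1 (((1 - P) / P) ^ #T * hat P a T ^ 2 / ex P a ^ 2) with hg
    have hc : 0 ≤ (1 - P) / P := div_nonneg (by linarith) hP0.le
    have hg0 : ∀ T, 0 ≤ g T := fun T => by
      simp only [hg]; split_ifs
      · exact le_rfl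
      · exact le_min zero_le_one (by positivity)
    obtain ⟨G, hG1, hG2⟩ := h71 (Fin N) F hFne
      (fun h => (mem_filter.1 h).2 (fun _ => d) (fun _ => hd) (empty_subset _))
      (fun A hA B hAB => mem_filter.2 ⟨mem_univ _, fun f hf hB =>
        (mem_filter.1 hA).2 f hf (hAB.trans hB)⟩) P hP0.le hP1.le g
      (fun T => ⟨hg0 T, by
        simp only [hg]; split_ifs
        · exact zero_le_one
        · exact min_le_left _ _⟩)
      (fun H hH => by
        by_cases h : ∃ T ∈ H.powerset, 1 ≤ g T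
        · obtain ⟨T, hT, h⟩ := h
          exact h.trans (single_le_sum (fun T _ => hg0 T) hT)
        · push Not at h
          have h2 := hkey H hH
          rw [← add_sum_erase _ _ (empty_mem_powerset H)]
          have h3 : ∑ T ∈ H.powerset.erase ∅, g T =
              (∑ T ∈ H.powerset.erase ∅, ((1 - P) / P) ^ #T * hat P a T ^ 2) / ex P a ^ 2 := by
            rw [sum_div]
            refine sum_congr rfl fun T hT => ?_
            have h4 := h T (mem_erase.1 hT).2
            simp only [hg, if_neg (mem_erase.1 hT).1] at h4 ⊢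
            exact min_eq_right (le_of_lt (by simpa using h4))
          rw [h3]
          have := (one_le_div hμ0).2 h2
          linarith [hg0 ∅])
      (by
        rw [← add_sum_erase _ _ (mem_univ ∅)]
        have h3 : ∑ T ∈ univ.erase ∅, g T * P ^ #T ≤
            (∑ T ∈ univ.erase ∅, hat P a T ^ 2) / ex P a ^ 2 := by
          rw [sum_div]
          refine sum_le_sum fun T hT => ?_
          simp only [hg, if_neg (mem_erase.1 hT).1]
          calc _ ≤ ((1 - P) / P) ^ #T * hat P a T ^ 2 / ex P a ^ 2 * P ^ #T :=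
                mul_le_mul_of_nonneg_right (min_le_right _ _) (by positivity)
            _ = (1 - P) ^ #T * (hat P a T ^ 2 / ex P a ^ 2) := by
                rw [div_pow]; field_simp
            _ ≤ 1 * (hat P a T ^ 2 / ex P a ^ 2) :=
                mul_le_mul_of_nonneg_right (pow_le_one₀ (by linarith) (by linarith))
                  (by positivity)
            _ = _ := one_mul _
        have h4 : (ex P a - ex P a ^ 2) / ex P a ^ 2 ≤ 1 / 2 := by
          rw [div_le_iff₀ hμ0]; nlinarith
        rw [hpar] at h3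
        simp only [hg, if_true, zero_mul, zero_add] at h3 ⊢
        linarith)
    refine ⟨G, fun S hS => hG1 S (mem_filter.2 ⟨mem_univ _, hS⟩), le_trans ?_ hG2⟩
    refine sum_le_sum fun T _ => pow_le_pow_left₀ hp0.le ?_ _
    rw [le_div_iff₀ (by norm_num)]
    by_contra hc
    push Not at hc
    nlinarith
  · exfalso
    push Not at hsmall
    have hP2 : 1 / 2 < P := by
      by_contra hc
      push Not at hc
      nlinarith
    obtain ⟨S, hS⟩ := hFne
    have h2 := hkey S hS
    have h3 : ∑ T ∈ S.powerset.erase ∅, ((1 - P) / P) ^ #T * hat P a T ^ 2 ≤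
        ∑ T ∈ univ.erase ∅, hat P a T ^ 2 := by
      refine le_trans (sum_le_sum fun T _ => ?_) (sum_le_sum_of_subset_of_nonneg
        (erase_subset_erase _ (subset_univ S.powerset)) fun T _ _ => sq_nonneg _)
      refine mul_le_of_le_one_left (sq_nonneg _) (pow_le_one₀ (div_nonneg (by linarith) hP0.le) ?_)
      rw [div_le_one hP0]; linarith
    nlinarith

end Crest.Agent.R52
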