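import Crest.Agent.R56.Fourier

/-! The Hoffman-type identity on the biased cube, and unions of independent random sets. -/

set_option autoImplicit false
set_option linter.unusedSectionVars false
open Finset Function Crest.FinProb

namespace Crest.Agent.R52
open Crest.Agent.R56

variable {ι : Type*} [Fintype ι] [DecidableEq ι]

/-- The Hoffman form: its kernel vanishes unless `x ∪ y ⊇ S`. -/
noncomputable def hoff (P : ℝ) (S : Finset ι) (a b : (ι → Bool) → ℝ) : ℝ :=
  ex P fun x => ex P fun y =>
    a x * b y * ∏ i ∈ S, (1 + -((1 - P) / P) * (ph P (x i) * ph P (y i)))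

theorem hoff_fourier (P : ℝ) (S : Finset ι) (a b : (ι → Bool) → ℝ) :
    hoff P S a b = ∑ T ∈ S.powerset, (-((1 - P) / P)) ^ #T * (hat P a T * hat P b T) := by
  have e : ∀ x y : ι → Bool,
      a x * b y * ∏ i ∈ S, (1 + -((1 - P) / P) * (ph P (x i) * ph P (y i))) =
      ∑ T ∈ S.powerset, ((-((1 - P) / P)) ^ #T * (a x * chi P T x)) * (b y * chi P T y) := by
    intro x y
    rw [prod_one_add, mul_sum]
    refine sum_congr rfl fun T _ => ?_
    rw [prod_mul_distrib, prod_mul_distrib, prod_const, chi, chi]; ring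
  simp only [hoff, e, ex_sum, ex_const_mul, ex_mul_const]
  exact sum_congr rfl fun T _ => by rw [hat, hat]; ring

theorem hoff_factor_ff {P : ℝ} (h0 : 0 < P) (h1 : P < 1) :
    1 + -((1 - P) / P) * (ph P false * ph P false) = 0 := by
  have h2 := sg_pos h0 h1
  have h3 := sg_sq h0 h1
  simp only [ph, Bool.false_eq_true, if_false]
  field_simp
  rw [h3]; ring

theorem hoff_eq_zero {P : ℝ} (h0 : 0 < P) (h1 : P < 1) (S : Finset ι) (a b : (ι → Bool) → ℝ)
    (h : ∀ x y, a x ≠ 0 → b y ≠ 0 → ∃ i ∈ S, x i = false ∧ y i = false) : hoff P S a b = 0 := by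
  rw [hoff, ← ex_const (p := P) (ι := ι) 0]
  refine ex_congr fun x => ?_
  rw [← ex_const (p := P) (ι := ι) 0]
  refine ex_congr fun y => ?_
  by_cases ha : a x = 0
  · simp [ha]
  by_cases hb : b y = 0
  · simp [hb]
  obtain ⟨i, hi, hx, hy⟩ := h x y ha hb
  rw [prod_eq_zero hi (by rw [hx, hy]; exact hoff_factor_ff h0 h1), mul_zero]

/-- If `S` is not inside a union of two members of the support of `a`, the Fourier weight of `a`
inside `S` is large. -/
theorem hoff_le {P : ℝ} (h0 : 0 < P) (h1 : P < 1) (S : Finset ι) (a : (ι → Bool) → ℝ)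
    (h : ∀ x y, a x ≠ 0 → a y ≠ 0 → ∃ i ∈ S, x i = false ∧ y i = false) :
    ex P a ^ 2 ≤ ∑ T ∈ S.powerset.erase ∅, ((1 - P) / P) ^ #T * hat P a T ^ 2 := by
  have e := hoff_eq_zero h0 h1 S a a h
  rw [hoff_fourier, ← add_sum_erase _ _ (empty_mem_powerset S), hat_empty] at e
  have h2 : ∑ T ∈ S.powerset.erase ∅, -(((1 - P) / P) ^ #T * hat P a T ^ 2) ≤
      ∑ T ∈ S.powerset.erase ∅, (-((1 - P) / P)) ^ #T * (hat P a T * hat P a T) := by
    refine sum_le_sum fun T _ => ?_
    have hc : 0 ≤ (1 - P) / P := div_nonneg (by linarith) h0.le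
    have h3 : -(((1 - P) / P) ^ #T) ≤ (-((1 - P) / P)) ^ #T := by
      have := neg_abs_le ((-((1 - P) / P)) ^ #T)
      rwa [abs_pow, abs_neg, abs_of_nonneg hc] at this
    have := mul_le_mul_of_nonneg_right h3 (sq_nonneg (hat P a T))
    nlinarith
  rw [sum_neg_distrib] at h2
  simp only [card_empty, pow_zero, one_mul] at e
  nlinarith

/-- The union of independent random sets of densities `a` and `b`. -/
theorem ex_union (a b : ℝ) (F : (ι → Bool) → ℝ) :
    ex (1 - (1 - a) * (1 - b)) F = ex a fun x => ex b fun y => F fun i => x i || y i := by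
  have key : ∀ z : ι → Bool, bernoulliWeight (1 - (1 - a) * (1 - b)) z =
      ex a fun x => ex b fun y => if (fun i => x i || y i) = z then 1 else 0 := by
    intro z
    have e : ∀ x y : ι → Bool, (if (fun i => x i || y i) = z then (1 : ℝ) else 0) =
        ∏ i, if (x i || y i) = z i then (1 : ℝ) else 0 := by
      intro x y
      rw [prod_boole]; simp [funext_iff]
    simp only [e]
    have e2 : ∀ x : ι → Bool, (ex b fun y => ∏ i, if (x i || y i) = z i then (1 : ℝ) else 0) =
        ∏ i, (b * (if (x i || true) = z i then (1 : ℝ) else 0) +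
          (1 - b) * if (x i || false) = z i then (1 : ℝ) else 0) := fun x =>
      ex_prod fun i c => if (x i || c) = z i then (1 : ℝ) else 0
    simp only [e2]
    rw [ex_prod fun i c => (b * (if (c || true) = z i then (1 : ℝ) else 0) +
          (1 - b) * if (c || false) = z i then (1 : ℝ) else 0), bernoulliWeight]
    refine prod_congr rfl fun i _ => ?_
    cases z i <;> simp <;> ring
  rw [ex]
  simp only [key, ← ex_mul_const, ← ex_sum]
  refine ex_congr fun x => ex_congr fun y => ?_
  simp

/-- Probability of a family of finsets, as an expectation over the cube. -/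
theorem ex_mem_eq (p : ℝ) (D : Finset (Finset ι)) :
    ex p (fun x => if univ.filter (fun i => x i = true) ∈ D then 1 else 0) =
      ∑ S ∈ D, p ^ #S * (1 - p) ^ (Fintype.card ι - #S) := by
  simp only [ex, mul_ite, mul_one, mul_zero]
  rw [← sum_filter]
  refine sum_bij' (fun x _ => univ.filter fun i => x i = true) (fun S _ => fun i => decide (i ∈ S))
    ?_ ?_ ?_ ?_ ?_
  · intro x hx; exact (mem_filter.1 hx).2
  · intro S hS; simpa using hS
  · intro x _; ext i; simp
  · intro S _; ext i; simp
  · intro x _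
    rw [bernoulliWeight, prod_ite, prod_const, prod_const]
    congr 2
    rw [← card_univ, ← card_filter_add_card_filter_not (s := univ) (fun i => x i = true)]
    simp

end Crest.Agent.R52
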